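import Vale.Agent.H43.P158.MainEnds

namespace Vale.Agent.Results.P158.A_DiagonalStripEnds

open MeasureTheory
open scoped NNReal
open Vale.Agent.H43.P158

/-- First-passage percolation on the square lattice with independent edge weights of law `G` on
`[0, ∞)`, where `G` is not a point mass (in particular: every atomless law).  Almost surely
neither end of a bigeodesic `v` stays in a diagonal strip: for every `k` and every index `i₀`
there are `i ≥ i₀` and `i ≤ i₀` with `|x - y| > k` at `v i`.  (The weights are indexed by all
unordered pairs of lattice points; only the weights of nearest-neighbour pairs are ever read.) -/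
theorem result : ∀ (G : Measure ℝ≥0) [IsProbabilityMeasure G], (∀ c, G {c} < 1) →
    ∀ᵐ ω ∂(Measure.infinitePi (fun _ : Sym2 (ℤ × ℤ) => G)),
      ∀ v : ℤ → ℤ × ℤ, IsBigeodesic ω v → ∀ (k : ℕ) (i₀ : ℤ),
        (∃ i, i₀ ≤ i ∧ (k : ℤ) < |(v i).1 - (v i).2|) ∧
        (∃ i, i ≤ i₀ ∧ (k : ℤ) < |(v i).1 - (v i).2|) := by
  intro G _ hG
  exact final_statement_ends G hG

end Vale.Agent.Results.P158.A_DiagonalStripEnds
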