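import Mathlib
import Vale.Agent.H40.P158.Final

/-!
# P158: almost surely, none of countably many fixed paths is a bigeodesic

Hand-in. The definitions used by the statement (`Z2`, `wt`, `T`, `IsBigeodesic`) are the shared
ones of the P158 folder, in `Vale/Agent/H43/P158/Defs.lean`. The proof is
`Vale.Agent.H40.P158.final_statement` (local tests at corners and on straight runs of the path,
far-apart windows, independence of finite boxes under the product measure).
-/

open MeasureTheory
open scoped NNReal

namespace Vale.Agent.Results.P158.B_FixedPaths

open Vale.Agent.H43.P158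

/-- Let the edge weights be independent with a common law `G` on `[0, ∞)` that is not a point
mass. Then for every countable set `Γ` of doubly infinite sequences of lattice points, almost
surely no member of `Γ` is a bigeodesic. -/
theorem result (G : Measure ℝ≥0) [IsProbabilityMeasure G] (hG : ∀ c, G {c} < 1)
    (Γ : Set (ℤ → ℤ × ℤ)) (hΓ : Γ.Countable) :
    ∀ᵐ ω ∂(Measure.infinitePi (fun _ : Sym2 (ℤ × ℤ) => G)), ∀ v ∈ Γ, ¬ IsBigeodesic ω v :=
  Vale.Agent.H40.P158.final_statement G hG Γ hΓ

end Vale.Agent.Results.P158.B_FixedPaths
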