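import Mathlib
import Vale.Agent.H40.P158.Ends.FinalL

/-!
# P158: almost surely no bigeodesic has an end that follows a path fixed in advance

Hand-in. The definitions used by the statement (`Z2`, `wt`, `T`, `IsBigeodesic`) are the shared
ones of the P158 folder, in `Vale/Agent/H43/P158/Defs.lean`. The proofs are
`Vale.Agent.H40.P158.ends_statement` and `Vale.Agent.H40.P158.turns_statement`.
-/

open MeasureTheory
open scoped NNReal

namespace Vale.Agent.Results.P158.C_DeterministicEnds

open Vale.Agent.H43.P158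

/-- Let the edge weights be independent with a common law `G` on `[0, ∞)` that is not a point
mass. (1) For every countable set `Γ` of sequences `r : ℕ → ℤ × ℤ`, almost surely no bigeodesic
`v` has an end that follows a member of `Γ`: neither `v (k + i) = r i` for all `i : ℕ` nor
`v (k - i) = r i` for all `i : ℕ`, whatever `k` and `r ∈ Γ`. (2) Almost surely every bigeodesic
changes direction at indices beyond every index `k`, forwards and backwards. -/
theorem result (G : Measure ℝ≥0) [IsProbabilityMeasure G] (hG : ∀ c, G {c} < 1) :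
    (∀ Γ : Set (ℕ → ℤ × ℤ), Γ.Countable →
      ∀ᵐ ω ∂(Measure.infinitePi (fun _ : Sym2 (ℤ × ℤ) => G)), ∀ v, IsBigeodesic ω v →
        ∀ r ∈ Γ, ∀ k : ℤ, ¬ (∀ i : ℕ, v (k + i) = r i) ∧ ¬ (∀ i : ℕ, v (k - i) = r i)) ∧
    (∀ᵐ ω ∂(Measure.infinitePi (fun _ : Sym2 (ℤ × ℤ) => G)), ∀ v, IsBigeodesic ω v →
      ∀ k : ℤ, (∃ i : ℤ, k ≤ i ∧ v (i + 1) - v i ≠ v (i + 2) - v (i + 1)) ∧
        (∃ i : ℤ, i ≤ k ∧ v (i + 1) - v i ≠ v (i + 2) - v (i + 1))) :=
  ⟨fun Γ hΓ => Vale.Agent.H40.P158.ends_statement G hG Γ hΓ,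
    Vale.Agent.H40.P158.turns_statement G hG⟩

end Vale.Agent.Results.P158.C_DeterministicEnds
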