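import Vale.Agent.H43.P158.MainEnds
import Vale.Agent.H40.P158.Ends.FinalL

namespace Vale.Agent.Results.P158.D_EndsCombined

open MeasureTheory
open scoped NNReal
open Vale.Agent.H43.P158

/-- First-passage percolation on the square lattice with independent edge weights of law `G` on
`[0, ∞)`, where `G` is not a point mass (in particular: every atomless law), and a countable set
`Γ` of sequences `r : ℕ → ℤ × ℤ`.  Almost surely every bigeodesic `v` satisfies for every index
`k`: (1) no end of `v` follows a member of `Γ`; (2) `v` changes direction beyond `k`, forwards and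
backwards; (3) `v` leaves every diagonal strip `|x - y| ≤ m` beyond `k`, forwards and backwards.
(The weights are indexed by all unordered pairs of lattice points; only the weights of
nearest-neighbour pairs are ever read.) -/
theorem result : ∀ (G : Measure ℝ≥0) [IsProbabilityMeasure G], (∀ c, G {c} < 1) →
    ∀ Γ : Set (ℕ → ℤ × ℤ), Γ.Countable →
      ∀ᵐ ω ∂(Measure.infinitePi (fun _ : Sym2 (ℤ × ℤ) => G)),
        ∀ v : ℤ → ℤ × ℤ, IsBigeodesic ω v → ∀ k : ℤ,
          (∀ r ∈ Γ, ¬ (∀ i : ℕ, v (k + i) = r i) ∧ ¬ (∀ i : ℕ, v (k - i) = r i)) ∧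
          ((∃ i : ℤ, k ≤ i ∧ v (i + 1) - v i ≠ v (i + 2) - v (i + 1)) ∧
            (∃ i : ℤ, i ≤ k ∧ v (i + 1) - v i ≠ v (i + 2) - v (i + 1))) ∧
          (∀ m : ℕ, (∃ i, k ≤ i ∧ (m : ℤ) < |(v i).1 - (v i).2|) ∧
            (∃ i, i ≤ k ∧ (m : ℤ) < |(v i).1 - (v i).2|)) := by
  intro G _ hG Γ hΓ
  filter_upwards [Vale.Agent.H40.P158.ends_statement G hG Γ hΓ,
    Vale.Agent.H40.P158.turns_statement G hG, final_statement_ends G hG] with ω h1 h2 h3 v hv k
  exact ⟨fun r hr => h1 v hv r hr k, h2 v hv k, fun m => h3 v hv m k⟩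

end Vale.Agent.Results.P158.D_EndsCombined
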